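import Vale.Agent.P267B.Defs

/-! P267, descent: local inverses. -/

open scoped Manifold ContDiff Topology
open Filter Metric Set

noncomputable section

namespace Vale.Agent.P267

set_option linter.unusedSectionVars false

variable {X M : Type} [TopologicalSpace X] [ChartedSpace C2 X] [T2Space X] [CompactSpace X]
  [IsManifold 𝓘(ℂ, C2) ω X] [TopologicalSpace M] [ChartedSpace C2 M] [T2Space M]
  [IsManifold 𝓘(ℂ, C2) ω M] {π : M → X} {g : M ≃ₜ M}

variable {l : X → X → M}

omit [CompactSpace X] in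
theorem ba_hol {G : M → X} {p : M} (hG : ContMDiffAt 𝓘(ℂ, C2) 𝓘(ℂ, C2) ω G p) {F : X → ℂ}
    (hF : HolAt F (G p)) : HolAt (F ∘ G) p :=
  holAt_iff_contMDiffAt.2 ((holAt_iff_contMDiffAt.1 hF).comp p hG)

omit [CompactSpace X] in
theorem ba_sm {G : M → X} {p : M} (hG : ContMDiffAt 𝓘(ℂ, C2) 𝓘(ℂ, C2) ω G p) {F : X → ℂ}
    (hF : SmAt F (G p)) : SmAt (F ∘ G) p := by
  have hp := mem_chart_source C2 p
  have e : (G ∘ (chartAt C2 p).symm) (chartAt C2 p p) = G p :=
    congrArg G ((chartAt C2 p).left_inv hp)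
  have h1 := hG.comp_of_eq (ah_cs hp) ((chartAt C2 p).left_inv hp)
  have h : AnalyticAt ℂ (chartAt C2 (G p) ∘ G ∘ (chartAt C2 p).symm) (chartAt C2 p p) :=
    (contMDiffAt_iff_contDiffAt.1 ((ah_c (mem_chart_source C2 (G p))).comp_of_eq h1 e)).analyticAt
  have e1 : (chartAt C2 (G p) ∘ G ∘ (chartAt C2 p).symm) (chartAt C2 p p) =
      chartAt C2 (G p) (G p) := congrArg (chartAt C2 (G p)) e
  have ev : (F ∘ G) ∘ (chartAt C2 p).symm =ᶠ[𝓝 (chartAt C2 p p)]
      (F ∘ (chartAt C2 (G p)).symm) ∘ chartAt C2 (G p) ∘ G ∘ (chartAt C2 p).symm := by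
    filter_upwards [h1.continuousAt.preimage_mem_nhds (t := (chartAt C2 (G p)).source)
      (by rw [e]; exact chart_source_mem_nhds C2 (G p))] with z hz
    exact congrArg F ((chartAt C2 (G p)).left_inv hz).symm
  unfold SmAt at hF
  rw [← e1] at hF
  filter_upwards [h.continuousAt.eventually hF, h.eventually_analyticAt,
    ev.eventuallyEq_nhds] with z h1 h2 h3
  exact (h1.comp z (h2.contDiffAt.restrict_scalars ℝ)).congr_of_eventuallyEq h3

theorem ba_gz {β : Type} {s : M → β} (hs : ∀ p, s (g p) = s p) (k : ℤ) (p : M) :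
    s ((g ^ k) p) = s p := by
  have e : ∀ j : ℤ, (g ^ (1 + j)) p = g ((g ^ j) p) := fun j => by
    rw [zpow_one_add]
    rfl
  induction k using Int.induction_on with
  | zero => rfl
  | succ k ih => rw [add_comm, e, hs, ih]
  | pred k ih => rw [← hs, ← e, add_sub_cancel, ih]

theorem IsCyclic.map_nhds (h : IsCyclic π g) (p : M) : map π (𝓝 p) = 𝓝 (π p) :=
  h.loc.isLocalHomeomorph.map_nhds_eq p

theorem IsCyclic.exists_lf (h : IsCyclic π g) : ∃ l : X → X → M, Lf π l := by
  classical
  have hσ := Function.surjInv_eq h.surj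
  refine ⟨fun y y' => if y' ∈ (h.loc (Function.surjInv h.surj y)).localInverse.source then
    (h.loc (Function.surjInv h.surj y)).localInverse y' else Function.surjInv h.surj y',
    fun y y' => ?_, fun y => ?_⟩
  · split_ifs with k
    · exact (h.loc _).localInverse_right_inv k
    · exact hσ y'
  · obtain ⟨p, hp⟩ : ∃ p, p = Function.surjInv h.surj y := ⟨_, rfl⟩
    have e : π p = y := hp ▸ hσ y
    subst e
    rw [← hp, if_pos (h.loc p).localInverse_mem_source,
      (h.loc p).localInverse_left_inv (h.loc p).localInverse_mem_target]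
    filter_upwards [(h.loc p).localInverse_eventuallyEq_left,
      (h.loc p).contMDiffAt.continuousAt.preimage_mem_nhds
        ((h.loc p).localInverse_open_source.mem_nhds (h.loc p).localInverse_mem_source)] with q h1 h2
    exact (if_pos h2).trans h1

theorem IsCyclic.hol_pi (h : IsCyclic π g) {F : X → ℂ} {p : M} :
    HolAt (F ∘ π) p ↔ HolAt F (π p) := by
  have l := (h.loc p).localInverse_left_inv (h.loc p).localInverse_mem_target
  refine ⟨fun k => (ba_hol (h.loc p).localInverse_contMDiffAt (l.symm ▸ k)).congr ?_,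
    ba_hol (h.loc p).contMDiffAt⟩
  exact (h.loc p).localInverse_eventuallyEq_right.mono fun y hy => congrArg F hy

theorem IsCyclic.sm_pi (h : IsCyclic π g) {F : X → ℂ} {p : M} :
    SmAt (F ∘ π) p ↔ SmAt F (π p) := by
  have l := (h.loc p).localInverse_left_inv (h.loc p).localInverse_mem_target
  refine ⟨fun k => (ba_sm (h.loc p).localInverse_contMDiffAt (l.symm ▸ k)).congr ?_,
    ba_sm (h.loc p).contMDiffAt⟩
  exact (h.loc p).localInverse_eventuallyEq_right.mono fun y hy => congrArg F hy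

theorem IsCyclic.pull_pull (h : IsCyclic π g) (w : X → X → ℂ) : pull g (pull π w) = pull π w := by
  have e : ∀ p, π (g p) = π p := fun p => by simpa using h.pi_gz 1 p
  funext p q
  simp only [pull, e]

theorem Lf.dsc_pull (L : Lf π l) (w : X → X → ℂ) : dsc l (pull π w) = w := by
  funext y y'
  simp only [dsc, pull, L.pi]

theorem pull_gz {f : M → M → ℂ} (hf : pull g f = f) (k : ℤ) (p q : M) :
    f ((g ^ k) p) ((g ^ k) q) = f p q := by
  have e : ∀ (j : ℤ) (p : M), (g ^ (1 + j)) p = g ((g ^ j) p) := fun j p => by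
    rw [zpow_one_add]
    rfl
  have hs : ∀ p q, f (g p) (g q) = f p q := fun p q => congrFun (congrFun hf p) q
  induction k using Int.induction_on with
  | zero => rfl
  | succ k ih => rw [add_comm, e, e, hs, ih]
  | pred k ih => rw [← hs, ← e, ← e, add_sub_cancel, ih]

theorem Lf.germ (h : IsCyclic π g) (L : Lf π l) {f : M → M → ℂ} (hf : pull g f = f) :
    Gm (pull π (dsc l f)) f := fun p => by
  obtain ⟨k, hk⟩ := (h.fib p (l (π p) (π p))).1 (L.pi _ _).symm
  have h1 := L.loc (π p)
  rw [← hk] at h1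
  filter_upwards [(g ^ k).continuous.continuousAt.eventually h1] with q hq
  rw [h.pi_gz] at hq
  simp only [pull, dsc, hq, ← hk, pull_gz hf]

theorem IsCyclic.desc_fun (h : IsCyclic π g) {s : M → ℂ} (hs : s ∘ g = s) :
    ∃ S : X → ℂ, S ∘ π = s := by
  refine ⟨s ∘ Function.surjInv h.surj, funext fun p => ?_⟩
  obtain ⟨k, hk⟩ := (h.fib p (Function.surjInv h.surj (π p))).1
    (Function.surjInv_eq h.surj _).symm
  simp only [Function.comp_apply, ← hk, ba_gz (congrFun hs)]

end Vale.Agent.P267
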