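import Vale.Agent.P267B.Defs

/-! P267, descent: linear algebra. -/

open scoped Manifold ContDiff Topology
open Filter Metric Set

noncomputable section

namespace Vale.Agent.P267

set_option linter.unusedSectionVars false

variable {X M : Type} [TopologicalSpace X] [ChartedSpace C2 X] [T2Space X] [CompactSpace X]
  [IsManifold 𝓘(ℂ, C2) ω X] [TopologicalSpace M] [ChartedSpace C2 M] [T2Space M]
  [IsManifold 𝓘(ℂ, C2) ω M] {π : M → X} {g : M ≃ₜ M}

theorem quot_equiv {V W : Type} [AddCommGroup V] [Module ℂ V] [AddCommGroup W] [Module ℂ W]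
    (φ : V →ₗ[ℂ] W) (δ : W →ₗ[ℂ] V) {Z B : Submodule ℂ V} {Z' B' : Submodule ℂ W}
    (h0 : ∀ v, δ (φ v) = v) (h1 : ∀ v ∈ Z, φ v ∈ Z') (h2 : ∀ v ∈ B, φ v ∈ B')
    (h3 : ∀ w ∈ Z', δ w ∈ Z) (h4 : ∀ w ∈ B', δ w ∈ B) (h5 : ∀ w ∈ Z', w - φ (δ w) ∈ B') :
    Nonempty ((Z ⧸ B.submoduleOf Z) ≃ₗ[ℂ] (Z' ⧸ B'.submoduleOf Z')) := by
  refine ⟨LinearEquiv.ofLinearMap
    (Submodule.mapQ _ _ (φ.restrict h1) fun v hv => h2 v hv)
    (Submodule.mapQ _ _ (δ.restrict h3) fun w hw => h4 w hw)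
    (LinearMap.ext fun x => ?_) (LinearMap.ext fun x => ?_)⟩
  · obtain ⟨w, rfl⟩ := Submodule.Quotient.mk_surjective _ x
    exact ((Submodule.Quotient.eq (B'.submoduleOf Z') (x := w)
      (y := φ.restrict h1 (δ.restrict h3 w))).2 (h5 w w.2)).symm
  · obtain ⟨v, rfl⟩ := Submodule.Quotient.mk_surjective _ x
    exact congrArg Submodule.Quotient.mk (Subtype.ext (h0 v))

theorem BB_bun {R : (M → ℂ) → M → Prop} (hR : ∀ f f' p, R f p → f =ᶠ[𝓝 p] f' → R f' p)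
    {u u' : M → M → ℂ} (h : Gm u u') (hu : IsBundle R u) : IsBundle R u' := fun p => by
  filter_upwards [hu p, (h p).eventuallyEq_nhds] with q a1 a2
  exact ⟨a2.eq_of_nhds ▸ a1.1, hR _ _ _ a1.2 (a2.div (h q))⟩

theorem Gm.hol {u u' : M → M → ℂ} (h : Gm u u') (hu : IsBundle HolAt u) : IsBundle HolAt u' :=
  BB_bun (fun _ _ _ a e => a.congr e) h hu

theorem Gm.sm {u u' : M → M → ℂ} (h : Gm u u') (hu : IsBundle SmAt u) : IsBundle SmAt u' :=
  BB_bun (fun _ _ _ a e => a.congr e) h hu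

theorem BB_iff {u u' : M → M → ℂ} (h : Gm u u') (p : M) (s : M → ℂ) :
    HolAt (u' p * s) p ↔ HolAt (u p * s) p :=
  ⟨fun a => a.congr ((h p).symm.mul EventuallyEq.rfl),
    fun a => a.congr ((h p).mul EventuallyEq.rfl)⟩

theorem BB_h0 {u u' : M → M → ℂ} (h : Gm u u') (G : M → M) : H0 G u' = H0 G u := by
  unfold H0
  simp only [BB_iff h]

theorem Gm.euler {u u' k : M → M → ℂ} (h : Gm u u') {G : M → M} {c : ℤ} (hu : Euler G u k c) :
    Euler G u' k c := by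
  have e0 : H0 G (k / u') = H0 G (k / u) :=
    BB_h0 (fun p => (EventuallyEq.refl _ (k p)).div (h p)) G
  have e1 : Z1 G u' = Z1 G u := by
    unfold Z1
    simp only [BB_iff h]
  have e2 : B1 G u' = B1 G u := by
    unfold B1
    simp only [BB_iff h]
  unfold Euler H1 at hu ⊢
  rw [BB_h0 h, e0, e1, e2]
  exact hu

end Vale.Agent.P267
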