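import Vale.Agent.P267B.BA
import Vale.Agent.P267B.BB

/-! P267, descent: cohomology. -/

open scoped Manifold ContDiff Topology
open Filter Metric Set

noncomputable section

namespace Vale.Agent.P267

set_option linter.unusedSectionVars false

variable {X M : Type} [TopologicalSpace X] [ChartedSpace C2 X] [T2Space X] [CompactSpace X]
  [IsManifold 𝓘(ℂ, C2) ω X] [TopologicalSpace M] [ChartedSpace C2 M] [T2Space M]
  [IsManifold 𝓘(ℂ, C2) ω M] {π : M → X} {g : M ≃ₜ M}

theorem BC_bundle (h : IsCyclic π g) {R : (M → ℂ) → M → Prop} {R' : (X → ℂ) → X → Prop}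
    (hR : ∀ (F : X → ℂ) (p : M), R (F ∘ π) p ↔ R' F (π p)) {w : X → X → ℂ} :
    IsBundle R (pull π w) ↔ IsBundle R' w := by
  have key : ∀ p : M, (∀ᶠ q in 𝓝 p, pull π w p q ≠ 0 ∧ R (pull π w p / pull π w q) q) ↔
      ∀ᶠ y in 𝓝 (π p), w (π p) y ≠ 0 ∧ R' (w (π p) / w y) y := by
    intro p
    rw [← h.map_nhds p, eventually_map]
    refine eventually_congr (Eventually.of_forall fun q => ?_)
    exact and_congr Iff.rfl (hR (w (π p) / w (π q)) q)
  constructor
  · intro H y
    obtain ⟨p, rfl⟩ := h.surj y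
    exact (key p).1 (H p)
  · intro H p
    exact (key p).2 (H (π p))

theorem IsCyclic.hol_pull (h : IsCyclic π g) {w : X → X → ℂ} :
    IsBundle HolAt (pull π w) ↔ IsBundle HolAt w :=
  BC_bundle h fun _ _ => h.hol_pi

theorem IsCyclic.sm_pull (h : IsCyclic π g) {w : X → X → ℂ} :
    IsBundle SmAt (pull π w) ↔ IsBundle SmAt w :=
  BC_bundle h fun _ _ => h.sm_pi

theorem BC_pi_g (h : IsCyclic π g) (p : M) : π (g p) = π p := by
  simpa using h.pi_gz 1 p

theorem IsCyclic.h0_pull (h : IsCyclic π g) (w : X → X → ℂ) :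
    Nonempty (H0 id w ≃ₗ[ℂ] H0 g (pull π w)) := by
  have hinj : Function.Injective (LinearMap.funLeft ℂ ℂ π) :=
    LinearMap.funLeft_injective_of_surjective ℂ ℂ π h.surj
  have hmap : (H0 id w).map (LinearMap.funLeft ℂ ℂ π) = H0 g (pull π w) := by
    unfold H0
    rw [Submodule.map_span]
    congr 1
    ext s
    constructor
    · rintro ⟨S, ⟨-, hS⟩, rfl⟩
      refine ⟨funext fun p => ?_, fun p => ?_⟩
      · change S (π (g p)) = S (π p)
        rw [BC_pi_g h]
      · exact (h.hol_pi (F := w (π p) * S)).2 (hS (π p))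
    · rintro ⟨hs, hs'⟩
      obtain ⟨S, rfl⟩ := h.desc_fun hs
      refine ⟨S, ⟨rfl, fun y => ?_⟩, rfl⟩
      obtain ⟨p, rfl⟩ := h.surj y
      exact (h.hol_pi (F := w (π p) * S)).1 (hs' p)
  exact ⟨((H0 id w).equivMapOfInjective _ hinj).trans (LinearEquiv.ofEq _ _ hmap)⟩

/-- The pull-back of families as a linear map. -/
def BC_phi (π : M → X) : (X → X → ℂ) →ₗ[ℂ] (M → M → ℂ) where
  toFun := pull π
  map_add' _ _ := rfl
  map_smul' _ _ := rfl

/-- The descent of families as a linear map. -/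
def BC_del (l : X → X → M) : (M → M → ℂ) →ₗ[ℂ] (X → X → ℂ) where
  toFun := dsc l
  map_add' _ _ := rfl
  map_smul' _ _ := rfl

theorem BC_span {V W : Type} [AddCommGroup V] [Module ℂ V] [AddCommGroup W] [Module ℂ W]
    (φ : V →ₗ[ℂ] W) {S : Set V} {T : Set W} (hS : ∀ v ∈ S, φ v ∈ T) :
    ∀ v ∈ Submodule.span ℂ S, φ v ∈ Submodule.span ℂ T := by
  intro v hv
  have : Submodule.span ℂ S ≤ (Submodule.span ℂ T).comap φ :=
    Submodule.span_le.2 fun v hv => Submodule.subset_span (hS v hv)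
  exact this hv

theorem IsCyclic.h1_pull (h : IsCyclic π g) (w : X → X → ℂ) :
    Nonempty (H1 id w ≃ₗ[ℂ] H1 g (pull π w)) := by
  obtain ⟨l, L⟩ := h.exists_lf
  refine quot_equiv (BC_phi π) (BC_del l) (fun v => L.dsc_pull v) ?_ ?_ ?_ ?_ ?_
  · refine BC_span (BC_phi π) ?_
    rintro f ⟨-, hf⟩
    refine ⟨h.pull_pull f, fun p => ?_⟩
    have h1 := hf (π p)
    rw [← h.map_nhds p, eventually_map] at h1
    filter_upwards [h1] with q hq
    exact (h.hol_pi (F := w (π q) * (f (π p) - f (π q)))).2 hq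
  · refine BC_span (BC_phi π) ?_
    rintro f ⟨S, -, hS⟩
    refine ⟨S ∘ π, funext fun p => ?_, fun p => ?_⟩
    · change S (π (g p)) = S (π p)
      rw [BC_pi_g h]
    · exact (h.hol_pi (F := w (π p) * (f (π p) - S))).2 (hS (π p))
  · refine BC_span (BC_del l) ?_
    rintro f ⟨hf, hf'⟩
    refine ⟨rfl, fun y => ?_⟩
    obtain ⟨p, rfl⟩ := h.surj y
    have hG := Lf.germ h L hf
    rw [← h.map_nhds p, eventually_map]
    filter_upwards [hf' p, (hG p).eventuallyEq_nhds] with q hq hq'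
    refine (h.hol_pi (F := w (π q) * (dsc l f (π p) - dsc l f (π q)))).1 (hq.congr ?_)
    filter_upwards [hq', hG q] with x hx hx'
    change w (π q) (π x) * (f p x - f q x) =
      w (π q) (π x) * (pull π (dsc l f) p x - pull π (dsc l f) q x)
    rw [hx, hx']
  · refine BC_span (BC_del l) ?_
    rintro f ⟨s, hs, hs'⟩
    obtain ⟨S, rfl⟩ := h.desc_fun hs
    refine ⟨S, rfl, fun y => ?_⟩
    have h1 : HolAt ((w y * (dsc l f y - S)) ∘ π) (l y y) := by
      refine (hs' (l y y)).congr ?_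
      filter_upwards [L.loc y] with x hx
      change w (π (l y y)) (π x) * (f (l y y) x - S (π x)) =
        w y (π x) * (f (l y y) (l y (π x)) - S (π x))
      rw [hx, L.pi]
    have h2 := h.hol_pi.1 h1
    rw [L.pi] at h2
    exact h2
  · refine BC_span (LinearMap.id - (BC_phi π).comp (BC_del l)) ?_
    rintro f ⟨hf, -⟩
    refine ⟨0, rfl, fun p => holAt_zero.congr ?_⟩
    filter_upwards [Lf.germ h L hf p] with x hx
    change 0 = w (π p) (π x) * (f p x - pull π (dsc l f) p x - 0)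
    rw [hx]
    simp

theorem IsCyclic.euler_pull (h : IsCyclic π g) {w k : X → X → ℂ} {c : ℤ} (hw : Euler id w k c) :
    Euler g (pull π w) (pull π k) c := by
  obtain ⟨e0⟩ := h.h0_pull w
  obtain ⟨e1⟩ := h.h1_pull w
  obtain ⟨e2⟩ := h.h0_pull (k / w)
  obtain ⟨hf, hc⟩ := hw
  refine ⟨e1.finiteDimensional, ?_⟩
  have e : pull π k / pull π w = pull π (k / w) := rfl
  rw [e, ← e0.finrank_eq, ← e1.finrank_eq, ← e2.finrank_eq]
  exact hc

end Vale.Agent.P267
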