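import Vale.Agent.P267B.BA

/-! P267, descent: connection forms. -/

open scoped Manifold ContDiff Topology
open Filter Metric Set

noncomputable section

namespace Vale.Agent.P267

set_option linter.unusedSectionVars false

variable {X M : Type} [TopologicalSpace X] [ChartedSpace C2 X] [T2Space X] [CompactSpace X]
  [IsManifold 𝓘(ℂ, C2) ω X] [TopologicalSpace M] [ChartedSpace C2 M] [T2Space M]
  [IsManifold 𝓘(ℂ, C2) ω M] {π : M → X} {g : M ≃ₜ M}

omit [T2Space X] [CompactSpace X] [IsManifold 𝓘(ℂ, C2) ω X] in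
theorem BD_chain {N E : Type} [TopologicalSpace N] [ChartedSpace C2 N] [T2Space N]
    [IsManifold 𝓘(ℂ, C2) ω N] [NormedAddCommGroup E] [NormedSpace ℝ E] {F : N → M} {x : N}
    (hF : ContMDiffAt 𝓘(ℂ, C2) 𝓘(ℂ, C2) ω F x) {f : M → E}
    (d1 : DifferentiableAt ℝ (f ∘ (chartAt C2 (F x)).symm) (chartAt C2 (F x) (F x))) :
    fderiv ℝ ((f ∘ F) ∘ (chartAt C2 x).symm) (chartAt C2 x x) =
      (fderiv ℝ (f ∘ (chartAt C2 (F x)).symm) (chartAt C2 (F x) (F x))).comp (dpi F x) := by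
  have hx := mem_chart_source C2 x
  have hy := mem_chart_source C2 (F x)
  have a2 := gc_an hF (isCh_chartAt x) hx (isCh_chartAt (F x)) hy
  have e : (chartAt C2 (F x) ∘ F ∘ (chartAt C2 x).symm) (chartAt C2 x x) =
      chartAt C2 (F x) (F x) := by
    simp only [Function.comp_apply, (chartAt C2 x).left_inv hx]
  have d2 := a2.differentiableAt.restrictScalars ℝ
  unfold dpi
  rw [← e] at d1 ⊢
  rw [← fderiv_comp _ d1 d2]
  refine Filter.EventuallyEq.fderiv_eq ?_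
  have ev : ∀ᶠ q in 𝓝 x, F q ∈ (chartAt C2 (F x)).source :=
    hF.continuousAt.preimage_mem_nhds ((chartAt C2 (F x)).open_source.mem_nhds hy)
  filter_upwards [((chartAt C2 x).tendsto_symm hx).eventually ev] with z h1
  simp only [Function.comp_apply, (chartAt C2 (F x)).left_inv h1]

omit [T2Space X] [CompactSpace X] [IsManifold 𝓘(ℂ, C2) ω X] [T2Space M]
  [IsManifold 𝓘(ℂ, C2) ω M] in
theorem BD_congr {F F' : M → X} {x : M} (e : F =ᶠ[𝓝 x] F') : dpi F x = dpi F' x := by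
  unfold dpi
  rw [e.eq_of_nhds]
  refine Filter.EventuallyEq.fderiv_eq ?_
  filter_upwards [((chartAt C2 x).tendsto_symm (mem_chart_source C2 x)).eventually e] with z h1
  simp only [Function.comp_apply, h1]

omit [CompactSpace X] in
theorem dpi_comp {N : Type} [TopologicalSpace N] [ChartedSpace C2 N] [T2Space N]
    [IsManifold 𝓘(ℂ, C2) ω N] {F : N → M} {F' : M → X} {x : N}
    (hF : ContMDiffAt 𝓘(ℂ, C2) 𝓘(ℂ, C2) ω F x)
    (hF' : ContMDiffAt 𝓘(ℂ, C2) 𝓘(ℂ, C2) ω F' (F x)) :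
    dpi (F' ∘ F) x = (dpi F' (F x)).comp (dpi F x) := by
  have a1 := gc_an hF' (isCh_chartAt (F x)) (mem_chart_source C2 (F x)) (isCh_chartAt (F' (F x)))
    (mem_chart_source C2 (F' (F x)))
  exact BD_chain hF (f := chartAt C2 (F' (F x)) ∘ F') (a1.differentiableAt.restrictScalars ℝ)

theorem dpi_id (x : M) : dpi (id : M → M) x = ContinuousLinearMap.id ℝ C2 := by
  unfold dpi
  rw [← fderiv_id (𝕜 := ℝ) (x := chartAt C2 x x)]
  refine Filter.EventuallyEq.fderiv_eq ?_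
  filter_upwards [(chartAt C2 x).eventually_right_inverse' (mem_chart_source C2 x)] with z h2
  exact h2

theorem IsCyclic.dpi_equiv (h : IsCyclic π g) (x : M) :
    ∃ e : C2 ≃L[ℝ] C2, (e : C2 →L[ℝ] C2) = dpi π x := by
  have hx := h.loc x
  have e : hx.localInverse (π x) = x := hx.localInverse_left_inv hx.localInverse_mem_target
  have e1 := dpi_comp hx.contMDiffAt hx.localInverse_contMDiffAt
  have e2 := dpi_comp hx.localInverse_contMDiffAt (h.loc (hx.localInverse (π x))).contMDiffAt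
  rw [BD_congr hx.localInverse_eventuallyEq_left, dpi_id] at e1
  rw [BD_congr hx.localInverse_eventuallyEq_right, dpi_id, e] at e2
  exact ⟨ContinuousLinearEquiv.equivOfInverse (dpi π x) (dpi hx.localInverse (π x))
    (fun v => (DFunLike.congr_fun e1 v).symm) (fun v => (DFunLike.congr_fun e2 v).symm), rfl⟩

theorem IsCyclic.dAt_pi (h : IsCyclic π g) {F : X → ℂ} {x : M} (hF : SmAt F (π x)) :
    dAt (F ∘ π) x = (dAt F (π x)).comp (dpi π x) :=
  BD_chain (h.loc x).contMDiffAt (hF.self_of_nhds.differentiableAt (by simp))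

theorem BD_step {θ : M → M → C2 →L[ℝ] ℂ} {G G' : M → M}
    (c : ContMDiff 𝓘(ℂ, C2) 𝓘(ℂ, C2) ω G) (c' : ContMDiff 𝓘(ℂ, C2) 𝓘(ℂ, C2) ω G')
    (h : ∀ p, ∀ᶠ x in 𝓝 p, θ p x = (θ (G p) (G x)).comp (dpi G x))
    (h' : ∀ p, ∀ᶠ x in 𝓝 p, θ p x = (θ (G' p) (G' x)).comp (dpi G' x)) (p : M) :
    ∀ᶠ x in 𝓝 p, θ p x = (θ (G' (G p)) (G' (G x))).comp (dpi (G' ∘ G) x) := by
  filter_upwards [h p, c.continuous.continuousAt.eventually (h' (G p))] with x h1 h2
  rw [dpi_comp (c x) (c' (G x)), ← ContinuousLinearMap.comp_assoc, ← h2, h1]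

theorem BD_inv {θ : M → M → C2 →L[ℝ] ℂ} {G : M ≃ₜ M}
    (c : ContMDiff 𝓘(ℂ, C2) 𝓘(ℂ, C2) ω G) (c' : ContMDiff 𝓘(ℂ, C2) 𝓘(ℂ, C2) ω G.symm)
    (h : ∀ p, ∀ᶠ x in 𝓝 p, θ p x = (θ (G p) (G x)).comp (dpi G x)) (p : M) :
    ∀ᶠ x in 𝓝 p, θ p x = (θ (G.symm p) (G.symm x)).comp (dpi G.symm x) := by
  filter_upwards [G.symm.continuous.continuousAt.eventually (h (G.symm p))] with x h1
  rw [h1, ContinuousLinearMap.comp_assoc, ← dpi_comp (c' x) (c (G.symm x)), G.self_comp_symm,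
    dpi_id, G.apply_symm_apply, G.apply_symm_apply, ContinuousLinearMap.comp_id]

theorem IsConnection.per_gz (h : IsCyclic π g) {u : M → M → ℂ} {θ : M → M → C2 →L[ℝ] ℂ}
    (hθ : IsConnection g u θ) (k : ℤ) (p : M) : ∀ᶠ x in 𝓝 p,
      θ p x = (θ ((g ^ k) p) ((g ^ k) x)).comp (dpi (g ^ k : M ≃ₜ M) x) := by
  have key : ContMDiff 𝓘(ℂ, C2) 𝓘(ℂ, C2) ω (g ^ k : M ≃ₜ M) ∧ ∀ p, ∀ᶠ x in 𝓝 p,
      θ p x = (θ ((g ^ k) p) ((g ^ k) x)).comp (dpi (g ^ k : M ≃ₜ M) x) := by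
    refine zpow_induction_left (P := fun G : M ≃ₜ M => ContMDiff 𝓘(ℂ, C2) 𝓘(ℂ, C2) ω G ∧
      ∀ p, ∀ᶠ x in 𝓝 p, θ p x = (θ (G p) (G x)).comp (dpi G x)) ⟨contMDiff_id, fun p => ?_⟩
      (fun a ha => ⟨h.hol.comp ha.1, BD_step (G := a) (G' := g) ha.1 h.hol ha.2 hθ.per⟩)
      (fun a ha => ⟨h.hol_inv.comp ha.1,
        BD_step (G := a) (G' := g.symm) ha.1 h.hol_inv ha.2 (BD_inv h.hol h.hol_inv hθ.per)⟩) k
    refine Eventually.of_forall fun x => ?_
    change θ p x = (θ p x).comp (dpi id x)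
    rw [dpi_id, ContinuousLinearMap.comp_id]
  exact key.2 p

theorem IsConnection.exists_pb (h : IsCyclic π g) {u : M → M → ℂ} {θ : M → M → C2 →L[ℝ] ℂ}
    (hθ : IsConnection g u θ) : ∃ ϑ : X → X → C2 →L[ℝ] ℂ, PB π θ ϑ := by
  obtain ⟨l, L⟩ := h.exists_lf
  choose e he using h.dpi_equiv
  refine ⟨fun y y' => (θ (l y y) (l y y')).comp ((e (l y y')).symm : C2 →L[ℝ] C2), fun p => ?_⟩
  obtain ⟨k, hk⟩ := (h.fib p (l (π p) (π p))).1 (L.pi _ _).symm
  have lo := L.loc (π p)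
  rw [← hk] at lo
  filter_upwards [hθ.per_gz h k p, (g ^ k).continuous.continuousAt.eventually lo] with x h1 h2
  rw [h.pi_gz] at h2
  have c := dpi_comp (contMDiff_zpow g h.hol h.hol_inv k x) (h.loc ((g ^ k) x)).contMDiffAt
  have c2 : π ∘ (g ^ k : M ≃ₜ M) = π := funext (h.pi_gz k)
  rw [c2, ← he ((g ^ k) x)] at c
  simp only [h2, ← hk]
  rw [h1, c, ContinuousLinearMap.comp_assoc, ← ContinuousLinearMap.comp_assoc _ (e _ : C2 →L[ℝ] C2),
    ContinuousLinearEquiv.coe_symm_comp_coe, ContinuousLinearMap.id_comp]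

end Vale.Agent.P267
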