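import Vale.Agent.P267B.BA

/-! P267, descent: charts. -/

open scoped Manifold ContDiff Topology
open Filter Metric Set

noncomputable section

namespace Vale.Agent.P267

set_option linter.unusedSectionVars false

variable {X M : Type} [TopologicalSpace X] [ChartedSpace C2 X] [T2Space X] [CompactSpace X]
  [IsManifold 𝓘(ℂ, C2) ω X] [TopologicalSpace M] [ChartedSpace C2 M] [T2Space M]
  [IsManifold 𝓘(ℂ, C2) ω M] {π : M → X} {g : M ≃ₜ M}

theorem HolChart.isCh {P : OpenPartialHomeomorph M C2} (hP : HolChart P) : IsCh P := by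
  refine isCh_of (fun y hy => analyticAt_pi_iff.2 fun j => (hP y hy fun q => chartAt C2 y q j).1
    ((isCh_chartAt y).coord (mem_chart_source C2 y) j))
    fun y hy => analyticAt_pi_iff.2 fun j => (hP y hy fun q => P q j).2 ?_
  refine ((ContinuousLinearMap.proj j : C2 →L[ℂ] ℂ).analyticAt (P y)).congr ?_
  filter_upwards [P.eventually_right_inverse' hy] with z hz
  simp only [Function.comp_apply, hz, ContinuousLinearMap.proj_apply]

theorem IsCyclic.isCh_desc (h : IsCyclic π g) {P : OpenPartialHomeomorph M C2}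
    {Q : OpenPartialHomeomorph X C2} (hP : IsCh P) (ht : Q.target ⊆ P.target)
    (hc : ∀ z ∈ Q.target, π (P.symm z) = Q.symm z) : IsCh Q := by
  have k : ∀ x ∈ Q.source, ∃ p ∈ P.source, π p = x ∧ P p = Q x ∧
      ∀ f : X → ℂ, (f ∘ π) ∘ P.symm =ᶠ[𝓝 (Q x)] f ∘ Q.symm := fun x hx => by
    have hz := Q.map_source hx
    refine ⟨P.symm (Q x), P.map_target (ht hz), (hc _ hz).trans (Q.left_inv hx),
      P.right_inv (ht hz), fun f => ?_⟩
    filter_upwards [Q.open_target.mem_nhds hz] with y hy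
    exact congrArg f (hc y hy)
  refine ⟨fun x hx f => ?_, fun x hx f => ?_⟩
  · obtain ⟨p, hp, rfl, e1, e2⟩ := k x hx
    rw [← h.hol_pi, hP.hol p hp, e1]
    exact analyticAt_congr (e2 f)
  · obtain ⟨p, hp, rfl, e1, e2⟩ := k x hx
    rw [← h.sm_pi, hP.sm p hp, e1]
    exact eventually_congr ((e2 f).eventuallyEq_nhds.mono fun w hw =>
      ⟨fun a => a.congr_of_eventuallyEq hw.symm, fun a => a.congr_of_eventuallyEq hw⟩)

theorem IsCyclic.lift_ch (h : IsCyclic π g) {Q : OpenPartialHomeomorph X C2} (hQ : IsCh Q) {p : M}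
    (hp : π p ∈ Q.source) : ∃ P : OpenPartialHomeomorph M C2, IsCh P ∧ p ∈ P.source ∧
      P p = Q (π p) ∧ P.target ⊆ Q.target ∧ ∀ z ∈ P.target, π (P.symm z) = Q.symm z := by
  obtain ⟨Φ, hp', e⟩ := h.loc p
  obtain ⟨φ, h1, h2⟩ : ∃ φ : OpenPartialHomeomorph M X, p ∈ φ.source ∧ EqOn π φ φ.source :=
    ⟨Φ.toOpenPartialHomeomorph, hp', e⟩
  have k : ∀ q ∈ φ.source, ∀ f : M → ℂ, (f ∘ φ.symm) ∘ π =ᶠ[𝓝 q] f := fun q hq f => by
    filter_upwards [φ.open_source.mem_nhds hq] with x hx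
    simp only [Function.comp_apply, h2 hx, φ.left_inv hx]
  refine ⟨φ.trans Q, ⟨fun q hq f => ?_, fun q hq f => ?_⟩, ⟨h1, ?_⟩, congrArg Q (h2 h1).symm,
    fun z hz => hz.1, fun z hz => (h2 (φ.map_target hz.2)).trans (φ.right_inv hz.2)⟩
  · refine Iff.trans ⟨fun a => a.congr (k q hq.1 f).symm, fun a => a.congr (k q hq.1 f)⟩ ?_
    rw [h.hol_pi, h2 hq.1]
    exact hQ.hol _ hq.2 _
  · refine Iff.trans ⟨fun a => a.congr (k q hq.1 f).symm, fun a => a.congr (k q hq.1 f)⟩ ?_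
    rw [h.sm_pi, h2 hq.1]
    exact hQ.sm _ hq.2 _
  · rwa [h2 h1] at hp

theorem PB.inChart (h : IsCyclic π g) {θ : M → M → C2 →L[ℝ] ℂ} {ϑ : X → X → C2 →L[ℝ] ℂ}
    (hb : PB π θ ϑ) {P : OpenPartialHomeomorph M C2} {Q : OpenPartialHomeomorph X C2}
    (hP : IsCh P) (hQ : IsCh Q) {z : C2} (hz : z ∈ P.target) (hz' : z ∈ Q.target)
    (hc : ∀ᶠ y in 𝓝 z, π (P.symm y) = Q.symm y) :
    inChart Q (ϑ (Q.symm z)) =ᶠ[𝓝 z] inChart P (θ (P.symm z)) := by
  have _ := hQ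
  have _ := hz'
  filter_upwards [P.open_target.mem_nhds hz, hc.eventually_nhds,
    (P.continuousAt_symm hz).tendsto.eventually (hb (P.symm z))] with y h1 h2 h3
  have hx := mem_chart_source C2 (P.symm y)
  have a := LT3_chain (f := chartAt C2 (π (P.symm y)) ∘ π) hx
    (LT3_rd (gc_an (h.loc (P.symm y)).contMDiffAt (isCh_chartAt _) hx (isCh_chartAt _)
      (mem_chart_source C2 _))) (P.continuousAt_symm h1)
    (LT3_rd (LT3_tr hP (isCh_chartAt _) h1 hx))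
  have b : (chartAt C2 (π (P.symm y)) ∘ π) ∘ P.symm =ᶠ[𝓝 y]
      chartAt C2 (π (P.symm y)) ∘ Q.symm := h2.mono fun w hw => congrArg _ hw
  rw [b.fderiv_eq] at a
  rw [P267.inChart, P267.inChart, h3, ← hc.self_of_nhds, ← h2.self_of_nhds, ← a]
  rfl

theorem PB.curv (h : IsCyclic π g) {θ : M → M → C2 →L[ℝ] ℂ} {ϑ : X → X → C2 →L[ℝ] ℂ}
    (hb : PB π θ ϑ) {P : OpenPartialHomeomorph M C2} {Q : OpenPartialHomeomorph X C2}
    (hP : IsCh P) (hQ : IsCh Q) {z : C2} (hz : z ∈ P.target) (hz' : z ∈ Q.target)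
    (hc : ∀ᶠ y in 𝓝 z, π (P.symm y) = Q.symm y) : curv Q ϑ z = curv P θ z := by
  funext a b
  exact extD_congr (hb.inChart h hP hQ hz hz' hc) _ _

end Vale.Agent.P267
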