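import Vale.Agent.P267B.Defs

/-! P267, descent: the curvature is continuous. -/

open scoped Manifold ContDiff Topology
open Filter Metric Set

noncomputable section

namespace Vale.Agent.P267

set_option linter.unusedSectionVars false

variable {X M : Type} [TopologicalSpace X] [ChartedSpace C2 X] [T2Space X] [CompactSpace X]
  [IsManifold 𝓘(ℂ, C2) ω X] [TopologicalSpace M] [ChartedSpace C2 M] [T2Space M]
  [IsManifold 𝓘(ℂ, C2) ω M] {π : M → X} {g : M ≃ₜ M}

theorem BF_tr {P Q : OpenPartialHomeomorph M C2} (hP : IsCh P) (hQ : IsCh Q)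
    {α : M → C2 →L[ℝ] ℂ} {z : C2} (hz : z ∈ P.target) (hq : P.symm z ∈ Q.source)
    (h : ∀ i, ContDiffAt ℝ ∞ (fun y => inChart Q α y (Module.finBasis ℝ C2 i)) (Q (P.symm z)))
    (w : C2) : ContDiffAt ℝ ∞ (fun y => inChart P α y w) z := by
  have hT := ((LT3_tr hP hQ hz hq).contDiffAt (n := ∞)).restrict_scalars ℝ
  have hD : ContDiffAt ℝ ∞ (fun y => fderiv ℝ (Q ∘ P.symm) y w) z :=
    (hT.fderiv_right (m := ∞) le_rfl).clm_apply contDiffAt_const
  generalize Module.finBasis ℝ C2 = b at h
  have h1 : ContDiffAt ℝ ∞ (fun y => ∑ i, b.coord i (fderiv ℝ (Q ∘ P.symm) y w) •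
      inChart Q α ((Q ∘ P.symm) y) (b i)) z :=
    ContDiffAt.sum fun i _ =>
      ((LinearMap.toContinuousLinearMap (b.coord i)).contDiff.contDiffAt.comp z hD).smul
        (ContDiffAt.comp (g := fun y => inChart Q α y (b i)) z (h i) hT)
  refine h1.congr_of_eventuallyEq ?_
  filter_upwards [(P.continuousAt_symm hz).preimage_mem_nhds (Q.open_source.mem_nhds hq),
    P.open_target.mem_nhds hz] with y h2 h3
  have h4 := LT3_chain (f := chartAt C2 (P.symm y)) h2
    (LT3_rd (hQ.tr (isCh_chartAt _) h2 (mem_chart_source C2 _))) (P.continuousAt_symm h3)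
    (LT3_rd (LT3_tr hP hQ h3 h2))
  simp only [← map_smul, ← map_sum, Module.Basis.coord_apply, b.sum_repr]
  rw [inChart, inChart, Function.comp_apply, Q.left_inv h2, ← h4]
  rfl

theorem IsConnection.sm_ch {G : M → M} {u : M → M → ℂ} {θ : M → M → C2 →L[ℝ] ℂ}
    (hθ : IsConnection G u θ) {P : OpenPartialHomeomorph M C2} (hP : IsCh P) {p : M}
    (hp : p ∈ P.source) (v : C2) :
    ∀ᶠ z in 𝓝 (P p), ContDiffAt ℝ ∞ (fun y => inChart P (θ p) y v) z := by
  have hq := mem_chart_source C2 p
  have t1 := P.tendsto_symm hp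
  filter_upwards [P.open_target.mem_nhds (P.map_source hp),
    t1.eventually ((chartAt C2 p).open_source.mem_nhds hq),
    (((chartAt C2 p).continuousAt hq).tendsto.comp t1).eventually
      (eventually_all.2 fun i => hθ.smooth p (Module.finBasis ℝ C2 i))] with z h1 h2 h3
  exact BF_tr hP (isCh_chartAt p) h1 h2 h3 v

theorem IsConnection.curv_cont {G : M → M} {u : M → M → ℂ} {θ : M → M → C2 →L[ℝ] ℂ}
    (hu : IsBundle SmAt u) (hθ : IsConnection G u θ) {P : OpenPartialHomeomorph M C2}
    (hP : IsCh P) (a b : Fin 4) : ContinuousOn (fun z => curv P θ z a b) P.target := by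
  refine fun z₀ h0 => ContinuousAt.continuousWithinAt ?_
  have hc : ∀ v w, ContinuousAt
      (fun z => fderiv ℝ (fun y => inChart P (θ (P.symm z₀)) y w) z v) z₀ := fun v w => by
    have h1 := (hθ.sm_ch hP (P.map_target h0) w).self_of_nhds
    rw [P.right_inv h0] at h1
    exact ((h1.fderiv_right (m := ∞) le_rfl).clm_apply contDiffAt_const).continuousAt
  refine ((hc (bs a) (bs b)).sub (hc (bs b) (bs a))).congr ?_
  have t0 := (P.continuousAt_symm h0).tendsto
  filter_upwards [P.open_target.mem_nhds h0, t0.eventually (hθ.compat _), t0.eventually (hu _)]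
    with z hz k1 k2
  have h1 := LT3_in hP hz k2.2
  have h2 := ((hP.sm _ (P.map_target hz) _).1 k2.2).self_of_nhds
  rw [P.right_inv hz] at h2
  have h3 : (u (P.symm z₀) / u (P.symm z)) (P.symm z) ≠ 0 :=
    div_ne_zero k2.1 (hu _).self_of_nhds.1
  have h4 : inChart P (θ (P.symm z₀)) =ᶠ[𝓝 z]
      inChart P (θ (P.symm z)) + inChart P (LT3_dl (u (P.symm z₀) / u (P.symm z))) := by
    filter_upwards [(P.continuousAt_symm hz).tendsto.eventually k1] with y hy
    rw [Pi.add_apply, inChart, inChart, inChart, ← ContinuousLinearMap.add_comp,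
      eq_add_of_sub_eq' hy]
    rfl
  change extD (inChart P (θ (P.symm z₀))) z (bs a) (bs b) = _
  rw [extD_congr h4, extD_add (LT3_diff hP hz fun w =>
    (hθ.smooth _ w).self_of_nhds.differentiableAt (by simp)) fun w => ?_, extD_congr h1,
    extD_dlog h2 h3, add_zero, curv]
  refine ((LT3_cd h2 h3 w).differentiableAt (by simp)).congr_of_eventuallyEq ?_
  filter_upwards [h1] with y hy
  rw [hy]

end Vale.Agent.P267
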