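import Vale.Agent.P267B.BD
import Vale.Agent.P267B.BE
import Vale.Agent.P267B.BF

/-! P267, descent: the descended connection. -/

open scoped Manifold ContDiff Topology
open Filter Metric Set

noncomputable section

namespace Vale.Agent.P267

set_option linter.unusedSectionVars false

variable {X M : Type} [TopologicalSpace X] [ChartedSpace C2 X] [T2Space X] [CompactSpace X]
  [IsManifold 𝓘(ℂ, C2) ω X] [TopologicalSpace M] [ChartedSpace C2 M] [T2Space M]
  [IsManifold 𝓘(ℂ, C2) ω M] {π : M → X} {g : M ≃ₜ M}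

theorem bg_dAt {f f' : M → ℂ} {x : M} (e : f =ᶠ[𝓝 x] f') : dAt f x = dAt f' x :=
  Filter.EventuallyEq.fderiv_eq
    (((chartAt C2 x).tendsto_symm (mem_chart_source C2 x)).eventually e)

theorem PB.conn (h : IsCyclic π g) {u : M → M → ℂ} {w : X → X → ℂ} {θ : M → M → C2 →L[ℝ] ℂ}
    {ϑ : X → X → C2 →L[ℝ] ℂ} (hb : PB π θ ϑ) (hθ : IsConnection g u θ) (hw : IsBundle SmAt w)
    (hg : Gm (pull π w) u) : IsConnection id w ϑ := by
  refine ⟨fun y v => ?_, fun y => ?_, fun y => Eventually.of_forall fun x => ?_⟩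
  · obtain ⟨p, rfl⟩ := h.surj y
    have hy := mem_chart_source C2 (π p)
    obtain ⟨P, hP, hp, e, -, hc⟩ := h.lift_ch (isCh_chartAt (π p)) hy
    have hz : chartAt C2 (π p) (π p) ∈ P.target := e ▸ P.map_source hp
    have k := hb.inChart h hP (isCh_chartAt (π p)) hz ((chartAt C2 (π p)).map_source hy)
      (Filter.mem_of_superset (P.open_target.mem_nhds hz) hc)
    rw [(chartAt C2 (π p)).left_inv hy, ← e, P.left_inv hp] at k
    rw [← e]
    filter_upwards [hθ.sm_ch hP hp v, k.eventuallyEq_nhds] with z h1 h2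
    exact h1.congr_of_eventuallyEq (h2.mono fun y hy => by simp only [hy])
  · obtain ⟨p, rfl⟩ := h.surj y
    have hw' := hw (π p)
    rw [← h.map_nhds p, eventually_map] at hw' ⊢
    filter_upwards [hθ.compat p, (hb p).eventually_nhds, (hg p).eventuallyEq_nhds.eventually_nhds,
      hw'] with q h1 h2 h3 h4
    have h5 := LT3_sm h4.2
    rw [← h.map_nhds q, eventually_map] at h5 ⊢
    filter_upwards [h1, h2, h3, hb q, (hg q).eventuallyEq_nhds, h5] with x k1 k2 k3 k4 k5 k6
    obtain ⟨e, he⟩ := h.dpi_equiv x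
    have k7 : (w (π p) / w (π q)) ∘ π =ᶠ[𝓝 x] u p / u q := k3.div k5
    rw [k2, k4, ← bg_dAt k7, h.dAt_pi k6, ← k7.self_of_nhds, ← he] at k1
    ext1 v
    simpa using congrArg (fun L : C2 →L[ℝ] ℂ => L (e.symm v)) k1
  · exact ((congrArg (ϑ y x).comp (dpi_id x)).trans (ContinuousLinearMap.comp_id _)).symm

end Vale.Agent.P267
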