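import Vale.Agent.P267B.Defs
import Vale.Agent.P267D.DA0
import Vale.Agent.P267D.DB0
import Vale.Agent.P267D.DF
import Vale.Agent.P267D.DI0

/-! P267, descent: the refined partition. -/

open scoped Manifold ContDiff Topology
open Filter Metric Set

noncomputable section

namespace Vale.Agent.P267

set_option linter.unusedSectionVars false

variable {X M : Type} [TopologicalSpace X] [ChartedSpace C2 X] [T2Space X] [CompactSpace X]
  [IsManifold 𝓘(ℂ, C2) ω X] [TopologicalSpace M] [ChartedSpace C2 M] [T2Space M]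
  [IsManifold 𝓘(ℂ, C2) ω M] {π : M → X} {g : M ≃ₜ M}

theorem IsCyclic.fin_tr [ConnectedSpace M] (h : IsCyclic π g) {K K' : Set M} (hK : IsCompact K)
    (hK' : IsCompact K') : {k : ℤ | ∃ p ∈ K, (g ^ k) p ∈ K'}.Finite := by
  have : ConnectedSpace X := h.surj.connectedSpace h.loc.contMDiff.continuous
  obtain ⟨m, P, Q, L⟩ := h.lay
  obtain ⟨ρ, hρ, -⟩ := pop_alt L.cover L.hol
  obtain ⟨t, ht⟩ := L.height h hρ
  have tc : Continuous t := continuous_iff_continuousAt.2 fun p =>
    Complex.continuous_re.continuousAt.comp (ht.sm p).continuousAt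
  obtain ⟨B, hB⟩ := (hK.union hK').exists_bound_of_continuousOn tc.continuousOn
  refine (finite_Icc ⌊-(2 * B)⌋ ⌈2 * B⌉).subset ?_
  rintro k ⟨p, h1, h2⟩
  have h3 := abs_le.1 (hB _ (Or.inl h1))
  have h4 := abs_le.1 (hB _ (Or.inr h2))
  rw [ht.gz] at h4
  exact ⟨Int.floor_le_iff.2 (by linarith), Int.le_ceil_iff.2 (by linarith)⟩

theorem IsPartition.refine [ConnectedSpace M] (h : IsCyclic π g) {l : ℕ}
    {P : Fin l → OpenPartialHomeomorph M C2} {ψ : Fin l → M → ℝ} (hP : IsPartition g P ψ) :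
    ∃ (r : ℕ) (a : Fin r → Fin l) (Q : Fin r → OpenPartialHomeomorph X C2) (φ : Fin r → X → ℝ),
      Rf π P ψ a Q φ := by
  classical
  have : ConnectedSpace X := h.surj.connectedSpace h.loc.contMDiff.continuous
  obtain ⟨m, P0, Q0, L⟩ := h.lay
  obtain ⟨ρ, hρ, -⟩ := pop_alt L.cover L.hol
  have h0 := L.part h hρ
  have cρ : ∀ a, Continuous (ρ a) := fun a => continuous_iff_continuousAt.2 fun x => by
    obtain ⟨b, hb⟩ := L.cover x
    refine (((hρ.sm a b).continuousOn.continuousAt ((Q0 b).open_target.mem_nhds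
      ((Q0 b).map_source hb))).comp ((Q0 b).continuousAt hb)).congr ?_
    filter_upwards [(Q0 b).eventually_left_inverse hb] with y hy
    simp only [Function.comp_apply, hy]
  obtain ⟨F, hF⟩ : ∃ F : Finset ℤ, ∀ a b (k : ℤ) p, (P0 b).source.indicator (ρ b ∘ π) p ≠ 0 →
      ψ a ((g ^ k) p) ≠ 0 → k ∈ F := by
    have h1 := h.fin_tr (isCompact_iUnion fun b => (h0.compact b).isCompact)
      (isCompact_iUnion fun a => (hP.compact a).isCompact)
    exact ⟨h1.toFinset, fun a b k p h2 h3 => h1.mem_toFinset.2 ⟨p,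
      mem_iUnion.2 ⟨b, subset_tsupport _ h2⟩, mem_iUnion.2 ⟨a, subset_tsupport _ h3⟩⟩⟩
  obtain ⟨Q, hQ⟩ : ∃ Q : Fin l × Fin m × F → OpenPartialHomeomorph X C2, ∀ i,
    Q i = ((Q0 i.2.1).trans (P0 i.2.1).symm).trans (shiftCh g (P i.1) i.2.2) := ⟨_, fun _ => rfl⟩
  obtain ⟨φ, hφ⟩ : ∃ φ : Fin l × Fin m × F → X → ℝ, ∀ i x, φ i x =
    ρ i.2.1 x * ψ i.1 ((g ^ (i.2.2 : ℤ)) ((P0 i.2.1).symm (Q0 i.2.1 x))) := ⟨_, fun _ _ => rfl⟩
  have cl : ∀ b (k : ℤ), ContinuousOn (fun x => (g ^ k) ((P0 b).symm (Q0 b x))) (Q0 b).source :=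
    fun b k => (g ^ k).continuous.comp_continuousOn ((P0 b).continuousOn_symm.comp
      (Q0 b).continuousOn fun x hx => L.tgt b ▸ (Q0 b).map_source hx)
  have tg : ∀ i z, z ∈ (Q i).target ↔ z ∈ (P i.1).target ∧
      (g ^ (i.2.2 : ℤ)).symm ((P i.1).symm z) ∈ (P0 i.2.1).source := fun i z => by
    rw [hQ]
    exact ⟨fun e => ⟨e.1.1, e.2.1⟩, fun e => ⟨⟨e.1, trivial⟩, e.2,
      (L.tgt _).symm ▸ (P0 _).map_source e.2⟩⟩
  have cm : ∀ i, ∀ z ∈ (Q i).target, π ((P i.1).symm z) = (Q i).symm z := fun i z hz => by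
    have e := ((tg i z).1 hz).2
    have e1 := L.comm _ _ ((P0 _).map_source e)
    rw [(P0 _).left_inv e, ← h.pi_gz i.2.2, Homeomorph.apply_symm_apply] at e1
    rw [hQ]
    exact e1
  let e := (Fintype.equivFin (Fin l × Fin m × F)).symm
  refine ⟨_, fun i => (e i).1, fun i => Q (e i), fun i => φ (e i), fun i z hz => ((tg _ z).1 hz).1,
    fun i => cm _, fun i => ?_, fun i => ?_, fun x => ?_, fun b z hz => ?_⟩
  · rw [funext (hφ (e i))]
    refine continuous_of_tsupport fun x hx => (cρ _).continuousAt.mul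
      ((hP.cont _).continuousAt.comp ((cl _ _).continuousAt ((Q0 _).open_source.mem_nhds
        (hρ.supp _ (tsupport_mul_subset_left hx)))))
  · refine (closure_minimal (fun x hx => ?_) (((cl (e i).2.1 (e i).2.2).mono
      (hρ.supp _)).preimage_isClosed_of_isClosed (isClosed_tsupport _)
        (isClosed_tsupport (ψ (e i).1)))).trans fun x hx => ?_
    · rw [Function.mem_support, hφ] at hx
      exact ⟨subset_tsupport _ (left_ne_zero_of_mul hx),
        subset_tsupport (ψ _) (right_ne_zero_of_mul hx)⟩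
    · rw [hQ]
      exact ⟨⟨hρ.supp _ hx.1, (L.tgt _).le ((Q0 _).map_source (hρ.supp _ hx.1))⟩, trivial,
        hP.supp _ hx.2⟩
  · rw [e.sum_comp fun i => φ i x, Fintype.sum_prod_type, Finset.sum_comm, Fintype.sum_prod_type,
      ← hρ.sum x]
    refine Finset.sum_congr rfl fun b _ => ?_
    simp only [hφ, ← Finset.mul_sum]
    rcases eq_or_ne (ρ b x) 0 with h1 | h1
    · rw [h1, zero_mul]
    obtain ⟨l1, l2, -⟩ := L.lift (hρ.supp b (subset_tsupport _ h1))
    rw [F.sum_coe_sort fun k => ∑ a, ψ a ((g ^ k) ((P0 b).symm (Q0 b x))),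
      ← finsum_eq_sum_of_support_subset _ fun k hk => ?_, hP.sum, mul_one]
    obtain ⟨a, -, ha⟩ := Finset.exists_ne_zero_of_sum_ne_zero hk
    exact hF a b k _ (by rwa [indicator_of_mem l1, Function.comp_apply, l2]) ha
  · have h1 : ∀ c (k : F), (Q (b, c, k)).target.indicator (φ (b, c, k) ∘ (Q (b, c, k)).symm) z =
        ψ b ((P b).symm z) * (P0 c).source.indicator (ρ c ∘ π)
          ((g ^ (-k : ℤ)) ((P b).symm z)) := fun c k => by
      rw [zpow_neg]
      by_cases h2 : z ∈ (Q (b, c, k)).target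
      · have h3 := ((tg _ z).1 h2).2
        have h4 := (L.pi_mem h3).2
        rw [← h.pi_gz k, Homeomorph.apply_symm_apply] at h4
        rw [indicator_of_mem h2, Function.comp_apply, ← cm _ z h2, hφ, h4, (P0 _).left_inv h3,
          Homeomorph.apply_symm_apply, mul_comm]
        refine congrArg _ ((indicator_of_mem h3 _).trans ?_).symm
        rw [Function.comp_apply, ← h.pi_gz k, Homeomorph.apply_symm_apply]
      · rw [indicator_of_notMem h2]
        exact (mul_eq_zero_of_right _ (indicator_of_notMem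
          (fun h3 => h2 ((tg _ z).2 ⟨hz, h3⟩)) _)).symm
    rw [Finset.sum_filter, e.sum_comp fun i => if i.1 = b then
      (Q i).target.indicator (φ i ∘ (Q i).symm) z else 0, Fintype.sum_prod_type,
      Finset.sum_eq_single b (fun a _ ha => by simp [ha]) (by simp), Fintype.sum_prod_type_right]
    simp only [if_true, h1, ← Finset.mul_sum]
    rcases eq_or_ne (ψ b ((P b).symm z)) 0 with h2 | h2
    · rw [h2, zero_mul]
    rw [F.sum_coe_sort fun k => ∑ c, (P0 c).source.indicator (ρ c ∘ π) ((g ^ (-k)) ((P b).symm z)),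
      ← finsum_eq_sum_of_support_subset _ fun k hk => ?_]
    · exact (congrArg _ ((finsum_comp_equiv (Equiv.neg ℤ)).trans (h0.sum _))).trans (mul_one _)
    obtain ⟨c, -, hc⟩ := Finset.exists_ne_zero_of_sum_ne_zero hk
    exact hF b c k _ hc (by rwa [← Homeomorph.mul_apply, zpow_neg, mul_inv_cancel])

end Vale.Agent.P267
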