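import Vale.Agent.P267B.Defs

/-! P267, descent: the integrals. -/

open scoped Manifold ContDiff Topology
open Filter Metric Set

noncomputable section

namespace Vale.Agent.P267

set_option linter.unusedSectionVars false

variable {X M : Type} [TopologicalSpace X] [ChartedSpace C2 X] [T2Space X] [CompactSpace X]
  [IsManifold 𝓘(ℂ, C2) ω X] [TopologicalSpace M] [ChartedSpace C2 M] [T2Space M]
  [IsManifold 𝓘(ℂ, C2) ω M] {π : M → X} {g : M ≃ₜ M}

theorem BI_int {Q : OpenPartialHomeomorph X C2} {φ : X → ℝ} (hc : Continuous φ)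
    (hs : tsupport φ ⊆ Q.source) {W : C2 → ℂ} (hW : ContinuousOn W Q.target) :
    MeasureTheory.IntegrableOn (fun z => (φ (Q.symm z) : ℂ) * W z) Q.target := by
  have h1 : ContinuousOn (fun z => (φ (Q.symm z) : ℂ) * W z) Q.target :=
    ((Complex.continuous_ofReal.comp hc).comp_continuousOn Q.continuousOn_symm).mul hW
  have hK : IsCompact (Q '' tsupport φ) :=
    (isClosed_tsupport φ).isCompact.image_of_continuousOn (Q.continuousOn.mono hs)
  have hKt : Q '' tsupport φ ⊆ Q.target := by
    rintro _ ⟨p, hp, rfl⟩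
    exact Q.map_source (hs hp)
  refine ((h1.mono hKt).integrableOn_compact hK).of_forall_sdiff_eq_zero
    Q.open_target.measurableSet fun z hz => ?_
  have : φ (Q.symm z) = 0 := by
    by_contra hne
    exact hz.2 ⟨_, subset_tsupport _ hne, Q.right_inv hz.1⟩
  rw [this, Complex.ofReal_zero, zero_mul]

theorem Rf.int {l r : ℕ} {P : Fin l → OpenPartialHomeomorph M C2} {ψ : Fin l → M → ℝ}
    {a : Fin r → Fin l} {Q : Fin r → OpenPartialHomeomorph X C2} {φ : Fin r → X → ℝ}
    (h : Rf π P ψ a Q φ) {W : Fin l → C2 → ℂ} (hW : ∀ b, ContinuousOn (W b) (P b).target) :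
    ∑ i, ∫ z in (Q i).target, (φ i ((Q i).symm z) : ℂ) * W (a i) z =
      ∑ b, ∫ z in (P b).target, (ψ b ((P b).symm z) : ℂ) * W b z := by
  classical
  have hI : ∀ i, MeasureTheory.IntegrableOn
      (fun z => (φ i ((Q i).symm z) : ℂ) * W (a i) z) (Q i).target := fun i =>
    BI_int (h.cont i) (h.supp i) ((hW (a i)).mono (h.tgt i))
  have hJ : ∀ i, MeasureTheory.IntegrableOn
      ((Q i).target.indicator fun z => (φ i ((Q i).symm z) : ℂ) * W (a i) z) (P (a i)).target :=
    fun i => (((MeasureTheory.integrable_indicator_iff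
      (Q i).open_target.measurableSet).2 (hI i))).integrableOn
  have e1 : ∀ i, ∫ z in (Q i).target, (φ i ((Q i).symm z) : ℂ) * W (a i) z =
      ∫ z in (P (a i)).target,
        (Q i).target.indicator (fun z => (φ i ((Q i).symm z) : ℂ) * W (a i) z) z := fun i => by
    rw [MeasureTheory.setIntegral_indicator (Q i).open_target.measurableSet,
      inter_eq_right.2 (h.tgt i)]
  rw [Finset.sum_congr rfl fun i _ => e1 i, ← Finset.sum_fiberwise Finset.univ a]
  refine Finset.sum_congr rfl fun b _ => ?_
  have e2 : ∀ i ∈ Finset.univ.filter (fun i => a i = b), ∫ z in (P (a i)).target,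
        (Q i).target.indicator (fun z => (φ i ((Q i).symm z) : ℂ) * W (a i) z) z =
      ∫ z in (P b).target,
        (Q i).target.indicator (fun z => (φ i ((Q i).symm z) : ℂ) * W b z) z := fun i hi => by
    rw [(Finset.mem_filter.1 hi).2]
  rw [Finset.sum_congr rfl e2, ← MeasureTheory.integral_finsetSum]
  · refine MeasureTheory.setIntegral_congr_fun (P b).open_target.measurableSet fun z hz => ?_
    show _ = (ψ b ((P b).symm z) : ℂ) * W b z
    rw [← h.fib b z hz, Complex.ofReal_sum, Finset.sum_mul]
    refine Finset.sum_congr rfl fun i _ => ?_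
    by_cases hq : z ∈ (Q i).target
    · simp only [indicator_of_mem hq, Function.comp_apply]
    · simp only [indicator_of_notMem hq, Complex.ofReal_zero, zero_mul]
  · intro i hi
    have := hJ i
    rwa [(Finset.mem_filter.1 hi).2] at this

end Vale.Agent.P267
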