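import Vale.Agent.P267.Stmt5
import Vale.Agent.P267D.DA
import Vale.Agent.P267L.LT3

/-! P267, descent: definitions. -/

open scoped Manifold ContDiff Topology
open Filter Metric Set

noncomputable section

namespace Vale.Agent.P267

variable {X M : Type} [TopologicalSpace X] [TopologicalSpace M]

/-- Sections `l y` of `π` that are local inverses near `l y y`. -/
structure Lf (π : M → X) (l : X → X → M) : Prop where
  pi : ∀ y y', π (l y y') = y'
  loc : ∀ y, ∀ᶠ q in 𝓝 (l y y), l y (π q) = q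

/-- The descent of a family of germs. -/
def dsc (l : X → X → M) (u : M → M → ℂ) : X → X → ℂ := fun y y' => u (l y y) (l y y')

/-- Families with the same germs. -/
def Gm (u u' : M → M → ℂ) : Prop := ∀ p, u p =ᶠ[𝓝 p] u' p

variable [ChartedSpace C2 X] [ChartedSpace C2 M]

/-- The derivative in the preferred charts. -/
def dpi (F : M → X) (x : M) : C2 →L[ℝ] C2 :=
  fderiv ℝ (chartAt C2 (F x) ∘ F ∘ (chartAt C2 x).symm) (chartAt C2 x x)

/-- `θ` is the pull-back of `ϑ`. -/
def PB (π : M → X) (θ : M → M → C2 →L[ℝ] ℂ) (ϑ : X → X → C2 →L[ℝ] ℂ) : Prop :=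
  ∀ p, ∀ᶠ x in 𝓝 p, θ p x = (ϑ (π p) (π x)).comp (dpi π x)

/-- A refinement of a partition of unity on the cover that descends to the base. -/
structure Rf (π : M → X) {l r : ℕ} (P : Fin l → OpenPartialHomeomorph M C2) (ψ : Fin l → M → ℝ)
    (a : Fin r → Fin l) (Q : Fin r → OpenPartialHomeomorph X C2) (φ : Fin r → X → ℝ) : Prop where
  tgt : ∀ i, (Q i).target ⊆ (P (a i)).target
  comm : ∀ i, ∀ z ∈ (Q i).target, π ((P (a i)).symm z) = (Q i).symm z
  cont : ∀ i, Continuous (φ i)
  supp : ∀ i, tsupport (φ i) ⊆ (Q i).source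
  sum : ∀ x, ∑ i, φ i x = 1
  fib : ∀ b, ∀ z ∈ (P b).target, ∑ i with a i = b,
    (Q i).target.indicator (φ i ∘ (Q i).symm) z = ψ b ((P b).symm z)

end Vale.Agent.P267
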