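import Vale.Agent.P267B.BC
import Vale.Agent.P267B.BG
import Vale.Agent.P267B.BH
import Vale.Agent.P267B.BI
import Vale.Agent.P267O.Main

/-! P267, descent: the lattice on the cover. -/

open scoped Manifold ContDiff Topology
open Filter Metric Set

noncomputable section

namespace Vale.Agent.P267

set_option linter.unusedSectionVars false

variable {X M : Type} [TopologicalSpace X] [ChartedSpace C2 X] [T2Space X] [CompactSpace X]
  [IsManifold 𝓘(ℂ, C2) ω X] [TopologicalSpace M] [ChartedSpace C2 M] [T2Space M]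
  [IsManifold 𝓘(ℂ, C2) ω M] {π : M → X} {g : M ≃ₜ M}

variable {l : X → X → M}

theorem Lf.hol (h : IsCyclic π g) (hl : Lf π l) {u : M → M → ℂ} (hu : IsBundle HolAt u)
    (pu : pull g u = u) : IsBundle HolAt (dsc l u) :=
  h.hol_pull.1 (Gm.hol (fun p => (hl.germ h pu p).symm) hu)

theorem Lf.sm (h : IsCyclic π g) (hl : Lf π l) {u : M → M → ℂ} (hu : IsBundle SmAt u)
    (pu : pull g u = u) : IsBundle SmAt (dsc l u) :=
  h.sm_pull.1 (Gm.sm (fun p => (hl.germ h pu p).symm) hu)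

theorem Lf.euler (h : IsCyclic π g) (hl : Lf π l) {u : M → M → ℂ} (pu : pull g u = u)
    {k : X → X → ℂ} {d : ℤ} (he : Euler id (dsc l u) k d) : Euler g u (pull π k) d :=
  (hl.germ h pu).euler (h.euler_pull he)

/-- The Chern-Weil integrals descend. -/
theorem Lf.pair [ConnectedSpace M] (h : IsCyclic π g) (hl : Lf π l) {u v : M → M → ℂ}
    {θ θ' : M → M → C2 →L[ℝ] ℂ} (hu : IsBundle SmAt u) (pu : pull g u = u) (hv : IsBundle SmAt v)
    (pv : pull g v = v) (cu : IsConnection g u θ) (cv : IsConnection g v θ') {n : ℕ}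
    {P : Fin n → OpenPartialHomeomorph M C2} {ψ : Fin n → M → ℝ} (hP : IsPartition g P ψ) :
    ∃ (ϑ ϑ' : X → X → C2 →L[ℝ] ℂ) (r : ℕ) (Q : Fin r → OpenPartialHomeomorph X C2)
      (φ : Fin r → X → ℝ), IsConnection id (dsc l u) ϑ ∧ IsConnection id (dsc l v) ϑ' ∧
      (∀ a, HolChart (Q a)) ∧ (∀ a, Continuous (φ a)) ∧ (∀ a, tsupport (φ a) ⊆ (Q a).source) ∧
      (∀ x, ∑ a, φ a x = 1) ∧ pairing P ψ θ θ' = pairing Q φ ϑ ϑ' := by
  obtain ⟨ϑ, b1⟩ := cu.exists_pb h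
  obtain ⟨ϑ', b2⟩ := cv.exists_pb h
  obtain ⟨r, a, Q, φ, R⟩ := hP.refine h
  have cP := fun b => (hP.chart b).isCh
  have cQ := fun i => h.isCh_desc (cP (a i)) (R.tgt i) (R.comm i)
  refine ⟨ϑ, ϑ', r, Q, φ, b1.conn h cu (hl.sm h hu pu) (hl.germ h pu),
    b2.conn h cv (hl.sm h hv pv) (hl.germ h pv), fun i => (cQ i).hol, R.cont, R.supp, R.sum, ?_⟩
  rw [pairing, pairing, ← R.int fun b => ?_]
  · congr 1
    refine Finset.sum_congr rfl fun i _ => MeasureTheory.setIntegral_congr_fun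
      (Q i).open_target.measurableSet fun z hz => ?_
    have e : ∀ᶠ y in 𝓝 z, π ((P (a i)).symm y) = (Q i).symm y :=
      mem_of_superset ((Q i).open_target.mem_nhds hz) (R.comm i)
    simp only [b1.curv h (cP _) (cQ i) (R.tgt i hz) hz e,
      b2.curv h (cP _) (cQ i) (R.tgt i hz) hz e]
  · have c1 := cu.curv_cont hu (cP b)
    have c2 := cv.curv_cont hv (cP b)
    exact ((((((c1 0 1).mul (c2 2 3)).sub ((c1 0 2).mul (c2 1 3))).add
      ((c1 0 3).mul (c2 1 2))).add ((c1 1 2).mul (c2 0 3))).sub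
      ((c1 1 3).mul (c2 0 2))).add ((c1 2 3).mul (c2 0 1))

theorem HasLattice.pull [ConnectedSpace M] (h : IsCyclic π g) {m : ℕ} {L : Fin m → X → X → ℂ}
    {c : (X → X → ℂ) → Fin m → ℤ} (hL : HasLattice X L c) :
    ∃ (L1 : Fin m → M → M → ℂ) (c1 : (M → M → ℂ) → Fin m → ℤ),
      IsLattice g (pull π (canon X)) L1 c1 := by
  obtain ⟨l, hl⟩ := h.exists_lf
  refine ⟨fun j => P267.pull π (L j), fun u => c (dsc l u),
    fun j => ⟨h.hol_pull.2 (hL.hol j), h.pull_pull _⟩,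
    fun j P r hP ht => oka_frame (h.hol_pull.2 (hL.hol j)) hP ht,
    fun j => by rw [hl.dsc_pull, hL.basis], by rw [hl.dsc_pull, hL.canonical],
    fun u v θ θ' hu pu hv pv cu cv n P ψ hP => ?_, fun u hu pu => ?_⟩
  · obtain ⟨ϑ, ϑ', r, Q, φ, a1, a2, a3, a4, a5, a6, e⟩ := hl.pair h hu pu hv pv cu cv hP
    rw [e, hL.pair _ _ ϑ ϑ' (hl.sm h hu pu) (hl.sm h hv pv) a1 a2 r Q φ a3 a4 a5 a6]
  · rw [hl.dsc_pull]
    exact hl.euler h pu (hL.rr _ (hl.hol h hu pu))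

end Vale.Agent.P267
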